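import Vale.Agent.P292.H169.Grad
import Mathlib.Algebra.Module.Submodule.Union

/-! A simple complex Lie algebra has a real grading as in `Gr`; uniqueness of the minimal orbit. -/

namespace Vale.Agent.P292.H169

open Module LieAlgebra LieModule

universe u

variable {g : Type u} [LieRing g] [LieAlgebra ℂ g] [FiniteDimensional ℂ g]
  [LieAlgebra.IsKilling ℂ g] (H : LieSubalgebra ℂ g) [H.IsCartanSubalgebra]

/-- a real linear functional which separates the weights -/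
theorem exists_sep : ∃ f : (H →ₗ[ℂ] ℂ) →ₗ[ℝ] ℝ, ∀ α β : Weight ℂ H g,
    f (Weight.toLinear ℂ H g α) = f (Weight.toLinear ℂ H g β) → α = β := by
  classical
  let ι := {p : Weight ℂ H g × Weight ℂ H g // p.1 ≠ p.2}
  have : Finite ι := inferInstance
  obtain ⟨f, hf⟩ := Module.exists_dual_forall_apply_ne_zero (K := ℝ)
    (fun p : ι => (Weight.toLinear ℂ H g p.1.1 - Weight.toLinear ℂ H g p.1.2 : H →ₗ[ℂ] ℂ))
    (fun p h => p.2 (by
      have h1 : Weight.toLinear ℂ H g p.1.1 = Weight.toLinear ℂ H g p.1.2 := sub_eq_zero.1 h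
      ext x
      exact LinearMap.congr_fun h1 x))
  refine ⟨f, fun α β h => ?_⟩
  by_contra hne
  apply hf ⟨(α, β), hne⟩
  rw [map_sub, h, sub_self]

variable (f : (H →ₗ[ℂ] ℂ) →ₗ[ℝ] ℝ)
  (hinj : ∀ α β : Weight ℂ H g,
    f (Weight.toLinear ℂ H g α) = f (Weight.toLinear ℂ H g β) → α = β)

/-- the piece of degree `r` -/
def VV (r : ℝ) : Submodule ℂ g :=
  ⨆ α : Weight ℂ H g, ⨆ (_ : f (Weight.toLinear ℂ H g α) = r), (rootSpace H α).toSubmodule

include hinj in
theorem VV_eq (α : Weight ℂ H g) :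
    VV H f (f (Weight.toLinear ℂ H g α)) = (rootSpace H α).toSubmodule := by
  refine le_antisymm (iSup₂_le fun β hβ => ?_) (le_iSup₂_of_le α rfl le_rfl)
  rw [hinj β α hβ]

omit [LieAlgebra.IsKilling ℂ g] in
theorem exists_weight {r : ℝ} (hr : VV H f r ≠ ⊥) :
    ∃ α : Weight ℂ H g, f (Weight.toLinear ℂ H g α) = r := by
  by_contra hcon
  push Not at hcon
  apply hr
  rw [eq_bot_iff]
  exact iSup₂_le fun β hβ => absurd hβ (hcon β)

include hinj in
theorem exists_root {r : ℝ} {x : g} (hx : x ∈ VV H f r) (hx0 : x ≠ 0) :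
    ∃ α : Weight ℂ H g, f (Weight.toLinear ℂ H g α) = r ∧ x ∈ rootSpace H α := by
  have hr : VV H f r ≠ ⊥ := by
    intro h
    rw [h, Submodule.mem_bot] at hx
    exact hx0 hx
  obtain ⟨α, rfl⟩ := exists_weight H f hr
  rw [VV_eq H f hinj] at hx
  exact ⟨α, rfl, hx⟩

include hinj in
theorem VV_top : ⨆ r, VV H f r = (⊤ : Submodule ℂ g) := by
  have h1 := LieModule.iSup_genWeightSpace_eq_top' ℂ H g
  have h2 : (⨆ χ : Weight ℂ H g, (genWeightSpace g (χ : H → ℂ)).toSubmodule) = ⊤ := by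
    rw [← LieSubmodule.iSup_toSubmodule, h1, LieSubmodule.top_toSubmodule]
  rw [eq_top_iff, ← h2]
  refine iSup_le fun α => ?_
  exact (VV_eq H f hinj α).ge.trans (le_iSup (VV H f) _)

include hinj in
theorem VV_indep : iSupIndep (VV H f : ℝ → Submodule ℂ g) := by
  have h1 := LieModule.iSupIndep_genWeightSpace' ℂ H g
  rw [← LieSubmodule.iSupIndep_toSubmodule] at h1
  rw [iSupIndep_def]
  intro r
  by_cases hr : VV H f r = ⊥
  · rw [hr]; exact disjoint_bot_left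
  · obtain ⟨α, rfl⟩ := exists_weight H f hr
    rw [VV_eq H f hinj]
    refine (h1 α).mono_right ?_
    refine iSup₂_le fun s hs => ?_
    refine iSup₂_le fun β hβ => ?_
    subst hβ
    have hne : β ≠ α := by
      rintro rfl
      exact hs rfl
    exact le_iSup₂_of_le (f := fun j (_ : j ≠ α) => (genWeightSpace g (j : H → ℂ)).toSubmodule)
      β hne le_rfl

theorem VV_fin : {r | (VV H f r : Submodule ℂ g) ≠ ⊥}.Finite := by
  refine (Set.finite_range (fun α : Weight ℂ H g => f (Weight.toLinear ℂ H g α))).subset ?_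
  intro r hr
  obtain ⟨α, hα⟩ := exists_weight H f hr
  exact ⟨α, hα⟩

include hinj in
theorem VV_lie {r s : ℝ} {x y : g} (hx : x ∈ VV H f r) (hy : y ∈ VV H f s) :
    ⁅x, y⁆ ∈ VV H f (r + s) := by
  by_cases hxy : ⁅x, y⁆ = 0
  · rw [hxy]; exact Submodule.zero_mem _
  have hx0 : x ≠ 0 := by
    rintro rfl
    exact hxy (zero_lie y)
  have hy0 : y ≠ 0 := by
    rintro rfl
    exact hxy (lie_zero x)
  obtain ⟨α, rfl, hα⟩ := exists_root H f hinj hx hx0
  obtain ⟨β, rfl, hβ⟩ := exists_root H f hinj hy hy0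
  have h1 : ⁅x, y⁆ ∈ genWeightSpace g ((α : H → ℂ) + (β : H → ℂ)) :=
    lie_mem_genWeightSpace_of_mem_genWeightSpace hα hβ
  have h2 : genWeightSpace g ((α : H → ℂ) + (β : H → ℂ)) ≠ ⊥ := by
    intro h
    rw [h, LieSubmodule.mem_bot] at h1
    exact hxy h1
  obtain ⟨γ, hγ⟩ : ∃ γ : Weight ℂ H g, (γ : H → ℂ) = (α : H → ℂ) + (β : H → ℂ) :=
    ⟨⟨(α : H → ℂ) + (β : H → ℂ), h2⟩, rfl⟩
  have h3 : Weight.toLinear ℂ H g γ = Weight.toLinear ℂ H g α + Weight.toLinear ℂ H g β := by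
    ext x
    exact congrFun hγ x
  rw [← map_add, ← h3, VV_eq H f hinj]
  rw [← hγ] at h1
  exact h1

include hinj in
theorem VV_nil {r : ℝ} {x : g} (hr : r ≠ 0) (hx : x ∈ VV H f r) : IsNilpotent (ad ℂ g x) := by
  by_cases hx0 : x = 0
  · rw [hx0, map_zero]; exact IsNilpotent.zero
  obtain ⟨α, rfl, hα⟩ := exists_root H f hinj hx hx0
  refine LieAlgebra.isNilpotent_ad_of_mem_rootSpace H ?_ hα
  intro h
  apply hr
  have : Weight.toLinear ℂ H g α = 0 := by
    ext x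
    exact congrFun h x
  rw [this, map_zero]

include hinj in
theorem VV_sca {x : g} (hx : x ∈ VV H f 0) (r : ℝ) : ∃ c : ℂ, ∀ y ∈ VV H f r, ⁅x, y⁆ = c • y := by
  by_cases hx0 : x = 0
  · exact ⟨0, fun y _ => by rw [hx0, zero_lie, zero_smul]⟩
  have hnt : Nontrivial g := ⟨x, 0, hx0⟩
  obtain ⟨α, h0, hα⟩ := exists_root H f hinj hx hx0
  have hzero : (α : H → ℂ) = 0 := by
    have h1 : f (Weight.toLinear ℂ H g 0) = 0 := by
      have : Weight.toLinear ℂ H g 0 = 0 := by ext x; rfl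
      rw [this, map_zero]
    have h2 := hinj α 0 (h0.trans h1.symm)
    rw [h2]
    rfl
  have hxH : x ∈ H := by
    have h1 : x ∈ rootSpace H (0 : H → ℂ) := by rw [← hzero]; exact hα
    rw [LieAlgebra.rootSpace_zero_eq] at h1
    exact h1
  by_cases hr : (VV H f r : Submodule ℂ g) = ⊥
  · refine ⟨0, fun y hy => ?_⟩
    rw [hr, Submodule.mem_bot] at hy
    rw [hy, lie_zero, smul_zero]
  · obtain ⟨β, rfl⟩ := exists_weight H f hr
    refine ⟨β ⟨x, hxH⟩, fun y hy => ?_⟩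
    rw [VV_eq H f hinj] at hy
    exact LieAlgebra.IsKilling.lie_eq_smul_of_mem_rootSpace (H := H) hy ⟨x, hxH⟩

variable (g) in
theorem exists_Gr : Nonempty (Gr g) := by
  obtain ⟨x0, hx0⟩ := LieAlgebra.exists_isCartanSubalgebra_engel ℂ g
  obtain ⟨f, hf⟩ := exists_sep (LieSubalgebra.engel ℂ x0)
  exact ⟨{ V := VV _ f, top := VV_top _ f hf, indep := VV_indep _ f hf, fin := VV_fin _ f,
           lie := VV_lie _ f hf, nil := VV_nil _ f hf, sca := VV_sca _ f hf }⟩

/-- a simple Lie algebra has only one closed conical nonzero nilpotent orbit -/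
theorem minimalOrbit_unique {g : Type u} [LieRing g] [LieAlgebra ℂ g] [FiniteDimensional ℂ g]
    [LieAlgebra.IsSimple ℂ g] {O O' : Set g} (hO : IsMinimalOrbit O) (hO' : IsMinimalOrbit O')
    (hc : ∀ c : ℂ, c ≠ 0 → ∀ y ∈ O, c • y ∈ O) (hc' : ∀ c : ℂ, c ≠ 0 → ∀ y ∈ O', c • y ∈ O') :
    O = O' := by
  obtain ⟨G⟩ := exists_Gr g
  exact orbit_unique_of_Gr G hO hO' hc hc'

end Vale.Agent.P292.H169
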