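import Vale.Agent.P292.H169.Lead

/-! Real gradings of a simple Lie algebra: the closed conical orbit meets the top piece. -/

namespace Vale.Agent.P292.H169

open Module LieAlgebra

universe u

/-- a real grading of `g` whose nonzero pieces act nilpotently and whose zero piece acts by
scalars on the pieces -/
structure Gr (g : Type u) [LieRing g] [LieAlgebra ℂ g] where
  V : ℝ → Submodule ℂ g
  top : ⨆ r, V r = ⊤
  indep : iSupIndep V
  fin : {r | V r ≠ ⊥}.Finite
  lie : ∀ {r s : ℝ} {x y : g}, x ∈ V r → y ∈ V s → ⁅x, y⁆ ∈ V (r + s)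
  nil : ∀ {r : ℝ} {x : g}, r ≠ 0 → x ∈ V r → IsNilpotent (ad ℂ g x)
  sca : ∀ {x : g}, x ∈ V 0 → ∀ r, ∃ c : ℂ, ∀ y ∈ V r, ⁅x, y⁆ = c • y

variable {g : Type u} [LieRing g] [LieAlgebra ℂ g]

namespace Gr

variable (G : Gr g)

/-- the part of degrees `≥ c` -/
def F (c : ℝ) : Submodule ℂ g := ⨆ r, ⨆ (_ : c ≤ r), G.V r

/-- the part of degrees `< c` -/
def L (c : ℝ) : Submodule ℂ g := ⨆ r, ⨆ (_ : r < c), G.V r

theorem le_F {c r : ℝ} (h : c ≤ r) : G.V r ≤ G.F c := le_iSup₂_of_le r h le_rfl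

theorem le_L {c r : ℝ} (h : r < c) : G.V r ≤ G.L c := le_iSup₂_of_le r h le_rfl

theorem F_anti {c d : ℝ} (h : c ≤ d) : G.F d ≤ G.F c :=
  iSup₂_le fun _ hr => G.le_F (h.trans hr)

theorem lie_F {c s : ℝ} {x y : g} (hx : x ∈ G.V s) (hy : y ∈ G.F c) : ⁅x, y⁆ ∈ G.F (c + s) := by
  have h1 : G.F c ≤ (G.F (c + s)).comap (ad ℂ g x) := by
    refine iSup₂_le fun r hr v hv => ?_
    rw [Submodule.mem_comap, ad_apply]
    exact G.le_F (by linarith) (G.lie hx hv)
  exact h1 hy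

theorem lie_L {c s : ℝ} (hs : s ≤ 0) {x y : g} (hx : x ∈ G.V s) (hy : y ∈ G.L c) :
    ⁅x, y⁆ ∈ G.L c := by
  have h1 : G.L c ≤ (G.L c).comap (ad ℂ g x) := by
    refine iSup₂_le fun r hr v hv => ?_
    rw [Submodule.mem_comap, ad_apply]
    exact G.le_L (by linarith) (G.lie hx hv)
  exact h1 hy

theorem exists_F_top : ∃ c, G.F c = ⊤ := by
  obtain ⟨c, hc⟩ := G.fin.bddBelow
  refine ⟨c, ?_⟩
  rw [eq_top_iff, ← G.top]
  refine iSup_le fun r => ?_
  by_cases h : G.V r = ⊥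
  · rw [h]; exact bot_le
  · exact G.le_F (hc h)

theorem exists_F_bot : ∃ c, G.F c = ⊥ := by
  obtain ⟨c, hc⟩ := G.fin.bddAbove
  refine ⟨c + 1, ?_⟩
  rw [eq_bot_iff]
  refine iSup₂_le fun r hr => ?_
  by_cases h : G.V r = ⊥
  · rw [h]
  · have := hc h
    linarith

theorem exists_gap : ∃ δ : ℝ, 0 < δ ∧ ∀ s, 0 < s → G.V s ≠ ⊥ → δ ≤ s := by
  classical
  by_cases hne : ∃ s, 0 < s ∧ G.V s ≠ ⊥
  · have hfin : {s | 0 < s ∧ G.V s ≠ ⊥}.Finite := G.fin.subset fun s hs => hs.2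
    obtain ⟨δ, hδ, hmin⟩ := Set.exists_min_image _ (fun s : ℝ => s) hfin hne
    exact ⟨δ, hδ.1, fun s h1 h2 => hmin s ⟨h1, h2⟩⟩
  · exact ⟨1, one_pos, fun s h1 h2 => absurd ⟨s, h1, h2⟩ hne⟩

/-- there is an element of the closed conical orbit killed by the positive part -/
theorem exists_killed {O : Set g} (hO : ∀ σ ∈ adjointGroup g, ∀ y ∈ O, σ y ∈ O)
    (hc : ∀ c : ℂ, c ≠ 0 → ∀ y ∈ O, c • y ∈ O) (hZ : IsZariskiClosed (O ∪ {0}))
    (hne : O.Nonempty) (h0 : (0 : g) ∉ O) :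
    ∃ z ∈ O, ∀ s, 0 < s → ∀ x ∈ G.V s, ⁅x, z⁆ = 0 := by
  by_contra hcon
  push Not at hcon
  obtain ⟨c0, hc0⟩ := G.exists_F_top
  obtain ⟨c1, hc1⟩ := G.exists_F_bot
  obtain ⟨δ, hδ, hgap⟩ := G.exists_gap
  have key : ∀ k : ℕ, ∃ y ∈ O, y ∈ G.F (c0 + k * δ) := by
    intro k
    induction k with
    | zero =>
      obtain ⟨y, hy⟩ := hne
      refine ⟨y, hy, ?_⟩
      have : c0 + ((0 : ℕ) : ℝ) * δ = c0 := by simp
      rw [this, hc0]
      exact Submodule.mem_top
    | succ k ih =>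
      obtain ⟨y, hy, hyF⟩ := ih
      obtain ⟨s, hs, x, hx, hxy⟩ := hcon y hy
      have hx0 : G.V s ≠ ⊥ := by
        intro h
        rw [h, Submodule.mem_bot] at hx
        rw [hx, zero_lie] at hxy
        exact hxy rfl
      have hsδ := hgap s hs hx0
      have hnil := G.nil hs.ne' hx
      obtain ⟨n, hn⟩ := hnil
      have hex : ∃ m, ((ad ℂ g x) ^ m) y = 0 := ⟨n, by rw [hn, LinearMap.zero_apply]⟩
      classical
      set m := Nat.find hex with hm
      have hm0 : ((ad ℂ g x) ^ m) y = 0 := Nat.find_spec hex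
      have hmin : ∀ l < m, ((ad ℂ g x) ^ l) y ≠ 0 := fun l hl => Nat.find_min hex hl
      have hm2 : 2 ≤ m := by
        by_contra hlt
        have h3 : m = 0 ∨ m = 1 := by omega
        rcases h3 with h3 | h3
        · rw [h3, pow_zero, Module.End.one_apply] at hm0
          rw [hm0] at hy
          exact h0 hy
        · rw [h3, pow_one, ad_apply] at hm0
          exact hxy hm0
      obtain ⟨l, hl⟩ : ∃ l, m = l + 2 := ⟨m - 2, by omega⟩
      have hmem := lead hO hc hZ ⟨n, hn⟩ hy (hmin (l + 1) (by omega))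
        (by rw [show l + 1 + 1 = m by omega]; exact hm0)
      refine ⟨_, hmem, ?_⟩
      have hF : ∀ j : ℕ, ((ad ℂ g x) ^ j) y ∈ G.F (c0 + k * δ + j * s) := by
        intro j
        induction j with
        | zero => simpa using hyF
        | succ j ih =>
          rw [pow_succ', Module.End.mul_apply, ad_apply]
          have h3 := G.lie_F hx ih
          have h4 : c0 + (k : ℝ) * δ + j * s + s = c0 + k * δ + ((j + 1 : ℕ) : ℝ) * s := by
            push_cast; ring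
          rwa [h4] at h3
      refine G.F_anti ?_ (hF (l + 1))
      have h5 : (1 : ℝ) ≤ ((l + 1 : ℕ) : ℝ) := by
        have : 1 ≤ l + 1 := by omega
        exact_mod_cast this
      push_cast at h5 ⊢
      nlinarith
  obtain ⟨k, hk⟩ := exists_nat_gt ((c1 - c0) / δ)
  obtain ⟨y, hy, hyF⟩ := key k
  have h1 : c1 ≤ c0 + k * δ := by
    rw [div_lt_iff₀ hδ] at hk
    linarith
  have h2 := G.F_anti h1 hyF
  rw [hc1, Submodule.mem_bot] at h2
  rw [h2] at hy
  exact h0 hy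

/-- the piece of degree `r` and the lower pieces are disjoint -/
theorem disjoint_L (r : ℝ) : Disjoint (G.V r) (G.L r) := by
  refine (G.indep r).mono_right ?_
  exact iSup₂_le fun s hs => le_iSup₂_of_le s hs.ne le_rfl

/-- the ideal generated by a homogeneous element killed by the positive part -/
theorem span_sup_L_eq_top [hsimp : LieAlgebra.IsSimple ℂ g] {r : ℝ} {z : g} (hz : z ∈ G.V r)
    (hz0 : z ≠ 0) (hk : ∀ s, 0 < s → ∀ x ∈ G.V s, ⁅x, z⁆ = 0) :
    (ℂ ∙ z) ⊔ G.L r = ⊤ := by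
  -- the smallest subspace containing `z` and stable under the negative part
  let C : Set (Submodule ℂ g) := {N | z ∈ N ∧ ∀ s < 0, ∀ x ∈ G.V s, ∀ n ∈ N, ⁅x, n⁆ ∈ N}
  let W : Submodule ℂ g := sInf C
  have hWz : z ∈ W := by
    rw [Submodule.mem_sInf]
    exact fun N hN => hN.1
  have hWs : ∀ s < 0, ∀ x ∈ G.V s, ∀ n ∈ W, ⁅x, n⁆ ∈ W := by
    intro s hs x hx n hn
    rw [Submodule.mem_sInf] at hn ⊢
    exact fun N hN => hN.2 s hs x hx n (hn N hN)
  have hWle : ∀ N ∈ C, W ≤ N := fun N hN => sInf_le hN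
  have hpos : ∀ n ∈ W, ∀ s, 0 ≤ s → ∀ x ∈ G.V s, ⁅x, n⁆ ∈ W := by
    let N' : Submodule ℂ g :=
      { carrier := {n | n ∈ W ∧ ∀ s, 0 ≤ s → ∀ x ∈ G.V s, ⁅x, n⁆ ∈ W}
        zero_mem' := ⟨W.zero_mem, fun s _ x _ => by rw [lie_zero]; exact W.zero_mem⟩
        add_mem' := fun {a b} ha hb => ⟨W.add_mem ha.1 hb.1, fun s hs x hx => by
          rw [lie_add]; exact W.add_mem (ha.2 s hs x hx) (hb.2 s hs x hx)⟩
        smul_mem' := fun c a ha => ⟨W.smul_mem c ha.1, fun s hs x hx => by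
          rw [lie_smul]; exact W.smul_mem c (ha.2 s hs x hx)⟩ }
    have hN' : N' ∈ C := by
      refine ⟨⟨hWz, fun s hs x hx => ?_⟩, fun s' hs' x' hx' n hn => ⟨hWs s' hs' x' hx' n hn.1,
        fun s hs x hx => ?_⟩⟩
      · rcases hs.eq_or_lt with h | h
        · subst h
          obtain ⟨c, hc⟩ := G.sca hx r
          rw [hc z hz]
          exact W.smul_mem c hWz
        · rw [hk s h x hx]
          exact W.zero_mem
      · rw [leibniz_lie]
        refine W.add_mem ?_ (hWs s' hs' x' hx' _ (hn.2 s hs x hx))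
        have h1 := G.lie hx hx'
        by_cases h2 : 0 ≤ s + s'
        · exact hn.2 _ h2 _ h1
        · exact hWs _ (not_le.1 h2) _ h1 n hn.1
    intro n hn
    exact (hWle N' hN' hn).2
  have hideal : ∀ x : g, ∀ n ∈ W, ⁅x, n⁆ ∈ W := by
    intro x n hn
    have h1 : (⊤ : Submodule ℂ g) ≤ W.comap ((LieModule.toEnd ℂ g g : g →ₗ[ℂ] Module.End ℂ g).flip n) := by
      rw [← G.top]
      refine iSup_le fun s v hv => ?_
      change ⁅v, n⁆ ∈ W
      by_cases h2 : 0 ≤ s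
      · exact hpos n hn s h2 v hv
      · exact hWs s (not_le.1 h2) v hv n hn
    exact h1 (Submodule.mem_top : x ∈ ⊤)
  let I : LieIdeal ℂ g := { W with lie_mem := fun {x n} hn => hideal x n hn }
  have hI : I = ⊤ := by
    rcases hsimp.eq_bot_or_eq_top I with h | h
    · exfalso
      have h1 : z ∈ I := hWz
      rw [h, LieSubmodule.mem_bot] at h1
      exact hz0 h1
    · exact h
  have hWtop : W = ⊤ := by
    rw [eq_top_iff]
    intro x _
    have h1 : x ∈ I := by rw [hI]; exact LieSubmodule.mem_top x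
    exact h1
  rw [eq_top_iff, ← hWtop]
  refine hWle _ ⟨Submodule.mem_sup_left (Submodule.mem_span_singleton_self z), ?_⟩
  intro s hs x hx n hn
  obtain ⟨a, ha, b, hb, rfl⟩ := Submodule.mem_sup.1 hn
  obtain ⟨c, rfl⟩ := Submodule.mem_span_singleton.1 ha
  rw [lie_add, lie_smul]
  refine Submodule.mem_sup_right ((G.L r).add_mem ((G.L r).smul_mem c ?_) (G.lie_L hs.le hx hb))
  exact G.le_L (by linarith) (G.lie hx hz)

/-- the components of an element killed by the positive part are killed -/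
theorem exists_top [LieAlgebra.IsSimple ℂ g] {z : g} (hz0 : z ≠ 0)
    (hk : ∀ s, 0 < s → ∀ x ∈ G.V s, ⁅x, z⁆ = 0) :
    ∃ r, z ∈ G.V r ∧ G.V r = ℂ ∙ z ∧ ∀ t, r < t → G.V t = ⊥ := by
  classical
  have hint : DirectSum.IsInternal G.V :=
    (DirectSum.isInternal_submodule_iff_iSupIndep_and_iSup_eq_top G.V).2 ⟨G.indep, G.top⟩
  let dec := hint.chooseDecomposition
  set D := DirectSum.decompose G.V z with hD
  have hsum : ∑ i ∈ D.support, (D i : g) = z := DirectSum.sum_support_decompose G.V z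
  have hkill : ∀ r s, 0 < s → ∀ x ∈ G.V s, ⁅x, (D r : g)⁆ = 0 := by
    intro r s hs x hx
    have h1 : ∑ i ∈ D.support, ⁅x, (D i : g)⁆ = 0 := by
      rw [← lie_sum, hsum]
      exact hk s hs x hx
    have h2 : ∀ i ∈ D.support, ⁅x, (D i : g)⁆ = 0 := by
      intro i hi
      have h3 : (DirectSum.decompose G.V (∑ i ∈ D.support, ⁅x, (D i : g)⁆) (s + i) : g) =
          ⁅x, (D i : g)⁆ := by
        rw [DirectSum.decompose_sum, DFinsupp.finsetSum_apply, AddSubmonoidClass.coe_finsetSum]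
        rw [Finset.sum_eq_single i]
        · rw [DirectSum.decompose_of_mem_same _ (G.lie hx (D i).2)]
        · intro j _ hji
          rw [DirectSum.decompose_of_mem_ne _ (G.lie hx (D j).2)]
          intro h
          exact hji (add_left_cancel h)
        · intro h
          exact absurd hi h
      rw [h1, DirectSum.decompose_zero] at h3
      exact h3.symm
    by_cases hr : r ∈ D.support
    · exact h2 r hr
    · have : D r = 0 := by simpa using hr
      rw [this, ZeroMemClass.coe_zero, lie_zero]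
  have hprop : ∀ r, (D r : g) ≠ 0 → G.V r = ℂ ∙ (D r : g) ∧ ∀ t, r < t → G.V t = ⊥ := by
    intro r hr
    have htop := G.span_sup_L_eq_top (D r).2 hr (hkill r)
    refine ⟨le_antisymm ?_ ?_, ?_⟩
    · intro v hv
      have h1 : v ∈ (ℂ ∙ (D r : g)) ⊔ G.L r := by rw [htop]; exact Submodule.mem_top
      obtain ⟨a, ha, b, hb, hab⟩ := Submodule.mem_sup.1 h1
      have ha' : a ∈ G.V r := by
        obtain ⟨c, rfl⟩ := Submodule.mem_span_singleton.1 ha
        exact (G.V r).smul_mem c (D r).2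
      have hb' : b ∈ G.V r := by
        have : b = v - a := by rw [← hab]; abel
        rw [this]
        exact (G.V r).sub_mem hv ha'
      have hb0 : b = 0 := Submodule.disjoint_def.1 (G.disjoint_L r) b hb' hb
      rw [← hab, hb0, add_zero]
      exact ha
    · rw [Submodule.span_singleton_le_iff_mem]
      exact (D r).2
    · intro t ht
      rw [eq_bot_iff]
      intro v hv
      have h1 : v ∈ (ℂ ∙ (D r : g)) ⊔ G.L r := by rw [htop]; exact Submodule.mem_top
      have h2 : (ℂ ∙ (D r : g)) ⊔ G.L r ≤ G.L t := by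
        refine sup_le ?_ (iSup₂_le fun s hs => G.le_L (hs.trans ht))
        rw [Submodule.span_singleton_le_iff_mem]
        exact G.le_L ht (D r).2
      rw [Submodule.mem_bot]
      exact Submodule.disjoint_def.1 (G.disjoint_L t) v hv (h2 h1)
  have hex : ∃ r, (D r : g) ≠ 0 := by
    by_contra hcon
    push Not at hcon
    apply hz0
    rw [← hsum]
    exact Finset.sum_eq_zero fun i _ => hcon i
  obtain ⟨r, hr⟩ := hex
  have huniq : ∀ i, i ≠ r → (D i : g) = 0 := by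
    intro i hi
    by_contra h
    rcases lt_or_gt_of_ne hi with h1 | h1
    · have h2 := (hprop i h).2 r h1
      apply hr
      exact (Submodule.mem_bot ℂ).1 (h2.le (D r).2)
    · have h2 := (hprop r hr).2 i h1
      apply h
      exact (Submodule.mem_bot ℂ).1 (h2.le (D i).2)
  have hz : z = (D r : g) := by
    rw [← hsum, Finset.sum_eq_single r (fun i _ hi => huniq i hi)]
    intro h
    have : D r = 0 := by simpa using h
    rw [this, ZeroMemClass.coe_zero]
  refine ⟨r, ?_, ?_, (hprop r hr).2⟩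
  · rw [hz]; exact (D r).2
  · rw [(hprop r hr).1]
    congr 1
    rw [← hz]

end Gr

/-- uniqueness of the closed conical orbit, given a grading -/
theorem orbit_unique_of_Gr [LieAlgebra.IsSimple ℂ g] (G : Gr g) {O O' : Set g}
    (hO : IsMinimalOrbit O) (hO' : IsMinimalOrbit O')
    (hc : ∀ c : ℂ, c ≠ 0 → ∀ y ∈ O, c • y ∈ O) (hc' : ∀ c : ℂ, c ≠ 0 → ∀ y ∈ O', c • y ∈ O') :
    O = O' := by
  obtain ⟨⟨y, hy0, -, hOy⟩, hZ⟩ := hO
  obtain ⟨⟨y', hy0', -, hOy'⟩, hZ'⟩ := hO'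
  have horb : ∀ (Q : Set g) (w : g), Q = {z | ∃ σ ∈ adjointGroup g, z = σ w} →
      ∀ σ ∈ adjointGroup g, ∀ v ∈ Q, σ v ∈ Q := by
    rintro Q w rfl σ hσ v ⟨τ, hτ, rfl⟩
    exact ⟨σ * τ, mul_mem hσ hτ, rfl⟩
  have hne : ∀ (Q : Set g) (w : g), Q = {z | ∃ σ ∈ adjointGroup g, z = σ w} → w ∈ Q := by
    rintro Q w rfl
    exact ⟨1, one_mem _, rfl⟩
  have hz : ∀ (Q : Set g) (w : g), w ≠ 0 → Q = {z | ∃ σ ∈ adjointGroup g, z = σ w} →
      (0 : g) ∉ Q := by
    rintro Q w hw rfl ⟨σ, -, h⟩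
    exact hw (by simpa using h.symm)
  have hgen : ∀ (Q : Set g) (w z : g), Q = {z | ∃ σ ∈ adjointGroup g, z = σ w} → z ∈ Q →
      Q = {v | ∃ σ ∈ adjointGroup g, v = σ z} := by
    rintro Q w z rfl ⟨τ, hτ, rfl⟩
    ext v
    constructor
    · rintro ⟨σ, hσ, rfl⟩
      refine ⟨σ * τ⁻¹, mul_mem hσ (inv_mem hτ), ?_⟩
      change σ w = σ (τ⁻¹ (τ w))
      congr 1
      exact (LinearEquiv.symm_apply_apply τ w).symm
    · rintro ⟨σ, hσ, rfl⟩
      exact ⟨σ * τ, mul_mem hσ hτ, rfl⟩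
  obtain ⟨z, hzO, hzk⟩ := G.exists_killed (horb O y hOy) hc hZ ⟨y, hne O y hOy⟩ (hz O y hy0 hOy)
  obtain ⟨z', hzO', hzk'⟩ := G.exists_killed (horb O' y' hOy') hc' hZ' ⟨y', hne O' y' hOy'⟩
    (hz O' y' hy0' hOy')
  have hz0 : z ≠ 0 := fun h => hz O y hy0 hOy (h ▸ hzO)
  have hz0' : z' ≠ 0 := fun h => hz O' y' hy0' hOy' (h ▸ hzO')
  obtain ⟨r, hr1, hr2, hr3⟩ := G.exists_top hz0 hzk
  obtain ⟨r', hr1', hr2', hr3'⟩ := G.exists_top hz0' hzk'
  have hrr : r = r' := by
    rcases lt_trichotomy r r' with h | h | h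
    · exfalso
      rw [hr3 r' h, Submodule.mem_bot] at hr1'
      exact hz0' hr1'
    · exact h
    · exfalso
      rw [hr3' r h, Submodule.mem_bot] at hr1
      exact hz0 hr1
  subst hrr
  rw [hr2] at hr1'
  obtain ⟨c, hcz⟩ := Submodule.mem_span_singleton.1 hr1'
  have hc0 : c ≠ 0 := by
    rintro rfl
    rw [zero_smul] at hcz
    exact hz0' hcz.symm
  have hmem : z' ∈ O := by rw [← hcz]; exact hc c hc0 z hzO
  rw [hgen O y z' hOy hmem, hgen O' y' z' hOy' hzO']

end Vale.Agent.P292.H169
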