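import Vale.Agent.P292.AdjVar

/-! Leading coefficients of `exp (s ad x) y` stay in a closed conical orbit. -/

namespace Vale.Agent.P292.H169

open Module LieAlgebra Polynomial

universe u

variable {g : Type u} [LieRing g] [LieAlgebra ℂ g]

/-- the exponential of a nilpotent `ad x` is in the adjoint group -/
theorem exists_exp {x : g} {n : ℕ} (hx : (ad ℂ g x) ^ (n + 1) = 0) :
    ∃ σ ∈ adjointGroup g, (σ : g →ₗ[ℂ] g) =
      ∑ l ∈ Finset.range (n + 1), ((l.factorial : ℂ)⁻¹) • (ad ℂ g x) ^ l := by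
  classical
  let inst : Module ℚ (Module.End ℂ g) := Module.compHom _ (algebraMap ℚ ℂ)
  have hN : IsNilpotent (ad ℂ g x) := ⟨n + 1, hx⟩
  have h1 : IsNilpotent.exp (ad ℂ g x) * IsNilpotent.exp (-(ad ℂ g x)) = 1 :=
    IsNilpotent.exp_mul_exp_neg_self hN
  have h2 : IsNilpotent.exp (-(ad ℂ g x)) * IsNilpotent.exp (ad ℂ g x) = 1 :=
    IsNilpotent.exp_neg_mul_exp_self hN
  have h3 : IsNilpotent.exp (ad ℂ g x) =
      ∑ l ∈ Finset.range (n + 1), ((l.factorial : ℂ)⁻¹) • (ad ℂ g x) ^ l := by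
    rw [IsNilpotent.exp_eq_sum hx]
    refine Finset.sum_congr rfl fun l _ => ?_
    change (algebraMap ℚ ℂ (l.factorial : ℚ)⁻¹) • (ad ℂ g x) ^ l = _
    rw [map_inv₀, map_natCast]
  refine ⟨LinearEquiv.ofLinearMap (IsNilpotent.exp (ad ℂ g x)) (IsNilpotent.exp (-(ad ℂ g x)))
    h1 h2, Subgroup.subset_closure ⟨x, n, hx, ?_⟩, ?_⟩
  · exact h3
  · exact h3

/-- leading coefficients -/
theorem lead {O : Set g} (hO : ∀ σ ∈ adjointGroup g, ∀ y ∈ O, σ y ∈ O)
    (hc : ∀ c : ℂ, c ≠ 0 → ∀ y ∈ O, c • y ∈ O) (hZ : IsZariskiClosed (O ∪ {0}))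
    {x : g} (hx : IsNilpotent (ad ℂ g x)) {y : g} (hy : y ∈ O) {m : ℕ}
    (h1 : ((ad ℂ g x) ^ m) y ≠ 0) (h2 : ((ad ℂ g x) ^ (m + 1)) y = 0) :
    ((ad ℂ g x) ^ m) y ∈ O := by
  classical
  obtain ⟨n, hn⟩ := hx
  have hn' : (ad ℂ g x) ^ (n + 1) = 0 := by rw [pow_succ, hn, zero_mul]
  have hzero : ∀ l, m < l → ((ad ℂ g x) ^ l) y = 0 := by
    intro l hl
    obtain ⟨k, rfl⟩ := Nat.exists_eq_add_of_lt hl
    have : m + k + 1 = k + (m + 1) := by ring
    rw [this, pow_add, Module.End.mul_apply, h2, map_zero]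
  set v : ℕ → g := fun l => ((l.factorial : ℂ)⁻¹) • ((ad ℂ g x) ^ l) y with hv
  have hexp : ∀ s : ℂ, ∑ l ∈ Finset.range (m + 1), s ^ l • v l ∈ O := by
    intro s
    have hs : (ad ℂ g (s • x)) ^ (n + 1) = 0 := by
      rw [map_smul, _root_.smul_pow, hn', smul_zero]
    obtain ⟨σ, hσ, h3⟩ := exists_exp hs
    have h4 := hO σ hσ y hy
    have h5 : σ y = ∑ l ∈ Finset.range (n + 1), s ^ l • v l := by
      have : σ y = (σ : g →ₗ[ℂ] g) y := rfl
      rw [this, h3, LinearMap.sum_apply]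
      refine Finset.sum_congr rfl fun l _ => ?_
      rw [map_smul, _root_.smul_pow, LinearMap.smul_apply, LinearMap.smul_apply, hv, smul_comm]
    have h6 : ∑ l ∈ Finset.range (n + 1), s ^ l • v l =
        ∑ l ∈ Finset.range (m + 1), s ^ l • v l := by
      have hmn : m ≤ n := by
        by_contra hlt
        rw [not_le] at hlt
        apply h1
        have : m = (m - (n + 1)) + (n + 1) := by omega
        rw [this, pow_add, hn', mul_zero, LinearMap.zero_apply]
      symm
      refine Finset.sum_subset (Finset.range_mono (by omega)) fun l _ hl => ?_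
      rw [Finset.mem_range, not_lt] at hl
      rw [hv]
      simp only
      rw [hzero l (by omega), smul_zero, smul_zero]
    rw [← h6, ← h5]
    exact h4
  have hγ : ∀ τ : ℂ, τ ≠ 0 → ∑ l ∈ Finset.range (m + 1), τ ^ (m - l) • v l ∈ O := by
    intro τ hτ
    have h3 := hc (τ ^ m) (pow_ne_zero _ hτ) _ (hexp τ⁻¹)
    have h4 : τ ^ m • ∑ l ∈ Finset.range (m + 1), (τ⁻¹) ^ l • v l =
        ∑ l ∈ Finset.range (m + 1), τ ^ (m - l) • v l := by
      rw [Finset.smul_sum]
      refine Finset.sum_congr rfl fun l hl => ?_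
      rw [Finset.mem_range] at hl
      rw [smul_smul]
      congr 1
      rw [inv_pow, ← div_eq_mul_inv, div_eq_iff (pow_ne_zero _ hτ), ← pow_add]
      congr 1
      omega
    rw [← h4]
    exact h3
  obtain ⟨S, hS⟩ := hZ
  have hvm : v m ∈ O ∪ {0} := by
    rw [hS]
    intro F hF
    let q : ℂ[X] := MvPolynomial.aeval (fun lam : Module.Dual ℂ g =>
      ∑ l ∈ Finset.range (m + 1), C (lam (v l)) * X ^ (m - l)) F
    have hq : ∀ τ : ℂ, q.eval τ = MvPolynomial.aeval (fun lam : Module.Dual ℂ g =>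
        lam (∑ l ∈ Finset.range (m + 1), τ ^ (m - l) • v l)) F := by
      intro τ
      have h3 : (Polynomial.aeval τ : ℂ[X] →ₐ[ℂ] ℂ).comp (MvPolynomial.aeval
          (fun lam : Module.Dual ℂ g => ∑ l ∈ Finset.range (m + 1), C (lam (v l)) * X ^ (m - l)))
          = MvPolynomial.aeval (fun lam : Module.Dual ℂ g =>
            lam (∑ l ∈ Finset.range (m + 1), τ ^ (m - l) • v l)) := by
        apply MvPolynomial.algHom_ext
        intro lam
        simp only [AlgHom.comp_apply, MvPolynomial.aeval_X, map_sum, map_mul, aeval_C, map_pow,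
          aeval_X, Algebra.algebraMap_self, RingHom.id_apply, map_smul, smul_eq_mul]
        refine Finset.sum_congr rfl fun l _ => ?_
        ring
      have h4 := DFunLike.congr_fun h3 F
      rw [AlgHom.comp_apply, Polynomial.coe_aeval_eq_eval] at h4
      exact h4
    have hq0 : q = 0 := by
      apply Polynomial.eq_zero_of_infinite_isRoot
      refine Set.Infinite.mono (s := {0}ᶜ) ?_ (Set.Finite.infinite_compl (Set.finite_singleton 0))
      intro τ hτ
      have hτ0 : τ ≠ 0 := hτ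
      have h3 : ∑ l ∈ Finset.range (m + 1), τ ^ (m - l) • v l ∈ O ∪ {0} := Or.inl (hγ τ hτ0)
      rw [hS] at h3
      have h4 := h3 F hF
      change q.eval τ = 0
      rw [hq]
      exact h4
    have h5 := hq 0
    rw [hq0, eval_zero] at h5
    have h6 : ∑ l ∈ Finset.range (m + 1), (0 : ℂ) ^ (m - l) • v l = v m := by
      rw [Finset.sum_eq_single m]
      · simp
      · intro l hl hlm
        rw [Finset.mem_range] at hl
        rw [zero_pow (by omega), zero_smul]
      · intro h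
        exact absurd (Finset.mem_range.2 (Nat.lt_succ_self m)) h
    rw [h6] at h5
    exact h5.symm
  have hfac : (m.factorial : ℂ) ≠ 0 := by exact_mod_cast m.factorial_ne_zero
  have hvm0 : v m ≠ 0 := by
    rw [hv]
    simp only
    exact smul_ne_zero (inv_ne_zero hfac) h1
  rcases hvm with h | h
  · have h3 := hc (m.factorial : ℂ) hfac _ h
    have h4 : (m.factorial : ℂ) • v m = ((ad ℂ g x) ^ m) y := by
      rw [hv]
      simp only
      rw [smul_smul, mul_inv_cancel₀ hfac, one_smul]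
    rw [← h4]
    exact h3
  · exact absurd h hvm0

end Vale.Agent.P292.H169
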